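import Vale.Agent.P017.R3.H985.D1a
import Vale.Agent.P017.R4.Defs2

/-!
# P017: even discriminants, 3 inert and 5 split: the first half of the descent (E1), (E3)
-/

open Finset

namespace Vale.Agent.P017.R4.H597

open Vale.Agent.P017.R3 Vale.Agent.P017.R4
open Vale.Agent.P017.R2.H985 (bit PF Pat sym Mat cork)
open Vale.Agent.P017.R2.H816
open Vale.Agent.P017.H185
open Vale.Agent.P017.R3.H985 (ker_zero ext_mulVec bit_dvd form_local bit5 bit_mod3 bit53 sum_pf)

/-! ### Characters modulo 8 -/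

theorem bit_two {c : ℕ} (h : ¬ 2 ∣ c) : bit 2 c = if c % 8 = 3 ∨ c % 8 = 5 then 1 else 0 := by
  have ho : Odd c := by rw [Nat.odd_iff]; omega
  unfold bit
  rw [jacobiSym.at_two ho, ZMod.χ₈_nat_eq_if_mod_eight]
  have h2 : ¬ c % 2 = 0 := by omega
  rw [if_neg h2]
  by_cases h3 : c % 8 = 3 ∨ c % 8 = 5
  · have h4 : ¬ (c % 8 = 1 ∨ c % 8 = 7) := by omega
    rw [if_pos h3, if_neg h4, if_pos rfl]
  · have h4 : c % 8 = 1 ∨ c % 8 = 7 := by omega
    rw [if_neg h3, if_pos h4, if_neg (by norm_num)]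

theorem bit_two_mul {a b : ℕ} (ha : ¬ 2 ∣ a) (hb : ¬ 2 ∣ b) :
    bit 2 (a * b) = bit 2 a + bit 2 b := by
  have hab : ¬ 2 ∣ a * b := by
    rw [Nat.Prime.dvd_mul Nat.prime_two]
    tauto
  rw [bit_two ha, bit_two hb, bit_two hab]
  have h1 : a % 8 = 1 ∨ a % 8 = 3 ∨ a % 8 = 5 ∨ a % 8 = 7 := by omega
  have h2 : b % 8 = 1 ∨ b % 8 = 3 ∨ b % 8 = 5 ∨ b % 8 = 7 := by omega
  rcases h1 with h1 | h1 | h1 | h1 <;> rcases h2 with h2 | h2 | h2 | h2 <;>
    · rw [Nat.mul_mod, h1, h2]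
      decide

theorem eps_mul {a b : ℕ} (ha : ¬ 2 ∣ a) (hb : ¬ 2 ∣ b) : eps (a * b) = eps a + eps b := by
  unfold eps
  have h1 : a % 4 = 1 ∨ a % 4 = 3 := by omega
  have h2 : b % 4 = 1 ∨ b % 4 = 3 := by omega
  rcases h1 with h1 | h1 <;> rcases h2 with h2 | h2 <;>
    · rw [Nat.mul_mod, h1, h2]
      decide

theorem add_of {f : ℕ → ZMod 2} (f1 : f 1 = 0)
    (fm : ∀ a b, ¬ 2 ∣ a → ¬ 2 ∣ b → f (a * b) = f a + f b)
    {N c : ℕ} (hN : Squarefree N) (hc : c ∣ N) (h2 : ¬ 2 ∣ c) :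
    f c = ∑ r ∈ N.primeFactors, if r ∣ c then f r else 0 := by
  have key : ∀ S : Finset ℕ, ¬ 2 ∣ (∏ r ∈ S, if r ∣ c then r else 1) ∧
      f (∏ r ∈ S, if r ∣ c then r else 1) = ∑ r ∈ S, if r ∣ c then f r else 0 := by
    intro S
    induction S using Finset.induction_on with
    | empty => simpa using f1
    | insert i S hi ih =>
      rw [prod_insert hi, sum_insert hi]
      have hi2 : ¬ 2 ∣ (if i ∣ c then i else 1) := by
        split_ifs with h
        · exact fun h' => h2 (h'.trans h)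
        · norm_num
      refine ⟨?_, ?_⟩
      · rw [Nat.Prime.dvd_mul Nat.prime_two]
        have := ih.1
        tauto
      · rw [fm _ _ hi2 ih.1, ih.2]
        congr 1
        split_ifs
        · rfl
        · exact f1
  conv_lhs => rw [← prod_if_dvd hN hc]
  exact (key _).2

/-! ### The condition at 2 -/

theorem sq_odd {X : ℤ} (h : ¬ (2 : ℤ) ∣ X) : ∃ j : ℤ, X ^ 2 = 8 * j + 1 := by
  obtain ⟨k, hk⟩ : ∃ k, X = 2 * k + 1 := ⟨X / 2, by omega⟩
  obtain ⟨i, hi⟩ : ∃ i, k * (k + 1) = i + i := Int.even_mul_succ_self k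
  exact ⟨i, by rw [hk]; linear_combination 4 * hi⟩

theorem odd_mul_sq {m : ℕ} (hm : ¬ 2 ∣ m) {Y : ℤ} (h : (2 : ℤ) ∣ m * Y ^ 2) : (2 : ℤ) ∣ Y := by
  rcases Int.prime_two.dvd_or_dvd h with h | h
  · exact absurd (by exact_mod_cast h) hm
  · exact Int.prime_two.dvd_of_dvd_pow h

theorem form3 {m b : ℕ} (hm : ¬ 2 ∣ m) {X Y Z : ℤ}
    (heq : X ^ 2 + ((2 * m : ℕ) : ℤ) * Y ^ 2 = b * Z ^ 2)
    (hprim : ¬ ((2 : ℤ) ∣ X ∧ (2 : ℤ) ∣ Y ∧ (2 : ℤ) ∣ Z)) :
    (¬ 2 ∣ b → b % 8 = 1 ∨ b % 8 = (1 + 2 * m) % 8) ∧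
    (∀ c : ℕ, b = 2 * c → ¬ 2 ∣ c → c % 8 = m % 8 ∨ c % 8 = (m + 2) % 8) := by
  push_cast at heq
  constructor
  · intro hb
    have hZ : ¬ (2 : ℤ) ∣ Z := by
      intro hZ
      obtain ⟨z, hz⟩ := hZ
      have hX : (2 : ℤ) ∣ X := by
        apply Int.prime_two.dvd_of_dvd_pow (n := 2)
        exact ⟨2 * b * z ^ 2 - m * Y ^ 2, by rw [hz] at heq; linear_combination heq⟩
      obtain ⟨x, hx⟩ := hX
      have hY : (2 : ℤ) ∣ Y := by
        apply odd_mul_sq hm
        exact ⟨b * z ^ 2 - x ^ 2, by rw [hz, hx] at heq; linarith⟩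
      exact hprim ⟨⟨x, hx⟩, hY, ⟨z, hz⟩⟩
    have hX : ¬ (2 : ℤ) ∣ X := by
      intro hX
      obtain ⟨x, hx⟩ := hX
      apply hZ
      apply odd_mul_sq hb
      exact ⟨2 * x ^ 2 + m * Y ^ 2, by rw [hx] at heq; linear_combination -heq⟩
    obtain ⟨i, hi⟩ := sq_odd hX
    obtain ⟨l, hl⟩ := sq_odd hZ
    rw [hi, hl] at heq
    by_cases hY : (2 : ℤ) ∣ Y
    · obtain ⟨y, hy⟩ := hY
      left
      have : (b : ℤ) = 1 + 8 * (i + m * y ^ 2 - b * l) := by rw [hy] at heq; linear_combination -heq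
      omega
    · obtain ⟨j, hj⟩ := sq_odd hY
      right
      rw [hj] at heq
      have : (b : ℤ) = 1 + 2 * m + 8 * (i + 2 * m * j - b * l) := by linear_combination -heq
      omega
  · intro c hbc hc
    have hX : (2 : ℤ) ∣ X := by
      apply Int.prime_two.dvd_of_dvd_pow (n := 2)
      exact ⟨c * Z ^ 2 - m * Y ^ 2, by rw [hbc] at heq; push_cast at heq; linear_combination heq⟩
    obtain ⟨x, hx⟩ := hX
    have heq2 : 2 * x ^ 2 + m * Y ^ 2 = c * Z ^ 2 := by
      rw [hx, hbc] at heq; push_cast at heq; linarith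
    have hY : ¬ (2 : ℤ) ∣ Y := by
      intro hY
      obtain ⟨y, hy⟩ := hY
      have hZ : (2 : ℤ) ∣ Z := by
        apply odd_mul_sq hc
        exact ⟨x ^ 2 + 2 * m * y ^ 2, by rw [hy] at heq2; linear_combination -heq2⟩
      exact hprim ⟨⟨x, hx⟩, ⟨y, hy⟩, hZ⟩
    have hZ : ¬ (2 : ℤ) ∣ Z := by
      intro hZ
      obtain ⟨z, hz⟩ := hZ
      apply hY
      apply odd_mul_sq hm
      exact ⟨2 * c * z ^ 2 - x ^ 2, by rw [hz] at heq2; linear_combination heq2⟩
    obtain ⟨i, hi⟩ := sq_odd hY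
    obtain ⟨l, hl⟩ := sq_odd hZ
    rw [hi, hl] at heq2
    by_cases hx2 : (2 : ℤ) ∣ x
    · obtain ⟨y, hy⟩ := hx2
      left
      have : (c : ℤ) = m + 8 * (y ^ 2 + m * i - c * l) := by
        rw [hy] at heq2; linear_combination -heq2
      omega
    · obtain ⟨j, hj⟩ := sq_odd hx2
      right
      rw [hj] at heq2
      have : (c : ℤ) = m + 2 + 8 * (2 * j + m * i - c * l) := by linear_combination -heq2
      omega

theorem form2 {m b : ℕ} (hm : m % 4 = 1) {X Y Z : ℤ}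
    (heq : X ^ 2 + (m : ℤ) * Y ^ 2 = b * Z ^ 2)
    (hprim : ¬ ((2 : ℤ) ∣ X ∧ (2 : ℤ) ∣ Y ∧ (2 : ℤ) ∣ Z)) :
    (¬ 2 ∣ b → b % 4 = 1) ∧
    (∀ c : ℕ, b = 2 * c → ¬ 2 ∣ c → (m % 8 = 1 ∧ c % 4 = 1) ∨ (m % 8 = 5 ∧ c % 4 = 3)) := by
  have hm2 : ¬ 2 ∣ m := by omega
  constructor
  · intro hb
    by_cases hX : (2 : ℤ) ∣ X
    · obtain ⟨x, hx⟩ := hX
      by_cases hY : (2 : ℤ) ∣ Y
      · exfalso
        obtain ⟨y, hy⟩ := hY
        apply hprim
        refine ⟨⟨x, hx⟩, ⟨y, hy⟩, odd_mul_sq hb ⟨2 * x ^ 2 + 2 * m * y ^ 2, ?_⟩⟩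
        rw [hx, hy] at heq
        linear_combination -heq
      · obtain ⟨j, hj⟩ := sq_odd hY
        have hZ : ¬ (2 : ℤ) ∣ Z := by
          intro hZ
          obtain ⟨z, hz⟩ := hZ
          apply hY
          apply odd_mul_sq hm2
          exact ⟨2 * b * z ^ 2 - 2 * x ^ 2, by rw [hz, hx] at heq; linear_combination heq⟩
        obtain ⟨l, hl⟩ := sq_odd hZ
        rw [hj, hl, hx] at heq
        have : (b : ℤ) = m + 4 * (x ^ 2 + 2 * m * j - 2 * b * l) := by linear_combination -heq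
        omega
    · obtain ⟨i, hi⟩ := sq_odd hX
      by_cases hY : (2 : ℤ) ∣ Y
      · obtain ⟨y, hy⟩ := hY
        have hZ : ¬ (2 : ℤ) ∣ Z := by
          intro hZ
          obtain ⟨z, hz⟩ := hZ
          apply hX
          apply Int.prime_two.dvd_of_dvd_pow (n := 2)
          exact ⟨2 * b * z ^ 2 - 2 * m * y ^ 2, by rw [hz, hy] at heq; linear_combination heq⟩
        obtain ⟨l, hl⟩ := sq_odd hZ
        rw [hi, hl, hy] at heq
        have : (b : ℤ) = 1 + 4 * (2 * i + m * y ^ 2 - 2 * b * l) := by linear_combination -heq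
        omega
      · exfalso
        obtain ⟨j, hj⟩ := sq_odd hY
        by_cases hZ : (2 : ℤ) ∣ Z
        · obtain ⟨z, hz⟩ := hZ
          rw [hi, hj, hz] at heq
          have : (m : ℤ) + 1 = 4 * (b * z ^ 2 - 2 * i - 2 * m * j) := by linear_combination heq
          omega
        · obtain ⟨l, hl⟩ := sq_odd hZ
          rw [hi, hj, hl] at heq
          have : (m : ℤ) + 1 - b = 8 * (b * l - i - m * j) := by linear_combination heq
          omega
  · intro c hbc hc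
    rw [hbc] at heq
    push_cast at heq
    have hX : ¬ (2 : ℤ) ∣ X := by
      intro hX
      obtain ⟨x, hx⟩ := hX
      have hY : (2 : ℤ) ∣ Y := by
        apply odd_mul_sq hm2
        exact ⟨c * Z ^ 2 - 2 * x ^ 2, by rw [hx] at heq; linear_combination heq⟩
      obtain ⟨y, hy⟩ := hY
      apply hprim
      refine ⟨⟨x, hx⟩, ⟨y, hy⟩, odd_mul_sq hc ⟨x ^ 2 + m * y ^ 2, ?_⟩⟩
      rw [hx, hy] at heq
      linarith
    have hY : ¬ (2 : ℤ) ∣ Y := by
      intro hY
      obtain ⟨y, hy⟩ := hY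
      apply hX
      apply Int.prime_two.dvd_of_dvd_pow (n := 2)
      exact ⟨c * Z ^ 2 - 2 * m * y ^ 2, by rw [hy] at heq; linear_combination heq⟩
    obtain ⟨i, hi⟩ := sq_odd hX
    obtain ⟨j, hj⟩ := sq_odd hY
    have hZ : ¬ (2 : ℤ) ∣ Z := by
      intro hZ
      obtain ⟨z, hz⟩ := hZ
      rw [hi, hj, hz] at heq
      have : (m : ℤ) + 1 = 8 * (c * z ^ 2 - i - m * j) := by linear_combination heq
      omega
    obtain ⟨l, hl⟩ := sq_odd hZ
    rw [hi, hj, hl] at heq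
    have : (m : ℤ) + 1 - 2 * c = 8 * (2 * c * l - i - m * j) := by linear_combination heq
    omega

theorem two3 {m b : ℕ} {κ : ZMod 2} (hm : ¬ 2 ∣ m) (hκ : m % 4 = 1 ↔ κ = 1) {X Y Z : ℤ}
    (heq : X ^ 2 + ((2 * m : ℕ) : ℤ) * Y ^ 2 = b * Z ^ 2)
    (hprim : ¬ ((2 : ℤ) ∣ X ∧ (2 : ℤ) ∣ Y ∧ (2 : ℤ) ∣ Z)) :
    (¬ 2 ∣ b → bit 2 b + κ * eps b = 0) ∧
    (∀ c : ℕ, b = 2 * c → ¬ 2 ∣ c → bit 2 c + κ * eps c + bit 2 m = 0) := by
  obtain ⟨h1, h2⟩ := form3 hm heq hprim
  have hκ' : κ = if m % 4 = 1 then 1 else 0 := by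
    split_ifs with h
    · exact hκ.mp h
    · have h3 : κ ≠ 1 := fun h' => h (hκ.mpr h')
      have : ∀ t : ZMod 2, t ≠ 1 → t = 0 := by decide
      exact this κ h3
  constructor
  · intro hb
    have h3 := h1 hb
    rw [bit_two hb, hκ']
    unfold eps
    have h4 : m % 8 = 1 ∨ m % 8 = 3 ∨ m % 8 = 5 ∨ m % 8 = 7 := by omega
    have h5 : m % 4 = m % 8 % 4 := by omega
    have h6 : b % 4 = b % 8 % 4 := by omega
    rw [h5, h6]
    rcases h3 with h3 | h3
    · rw [h3]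
      simp
    · rcases h4 with h4 | h4 | h4 | h4 <;>
      · have h7 : (1 + 2 * m) % 8 = (1 + 2 * (m % 8)) % 8 := by omega
        rw [h3, h7, h4]
        decide
  · intro c hbc hc
    have h3 := h2 c hbc hc
    rw [bit_two hc, bit_two hm, hκ']
    unfold eps
    have h4 : m % 8 = 1 ∨ m % 8 = 3 ∨ m % 8 = 5 ∨ m % 8 = 7 := by omega
    have h5 : m % 4 = m % 8 % 4 := by omega
    have h6 : c % 4 = c % 8 % 4 := by omega
    rw [h5, h6]
    rcases h3 with h3 | h3
    · rcases h4 with h4 | h4 | h4 | h4 <;>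
      · rw [h3, h4]
        decide
    · rcases h4 with h4 | h4 | h4 | h4 <;>
      · have h7 : (m + 2) % 8 = (m % 8 + 2) % 8 := by omega
        rw [h3, h7, h4]
        decide

theorem two2 {m b : ℕ} (hm : m % 4 = 1) {X Y Z : ℤ}
    (heq : X ^ 2 + (m : ℤ) * Y ^ 2 = b * Z ^ 2)
    (hprim : ¬ ((2 : ℤ) ∣ X ∧ (2 : ℤ) ∣ Y ∧ (2 : ℤ) ∣ Z)) :
    (¬ 2 ∣ b → eps b = 0) ∧ (∀ c : ℕ, b = 2 * c → ¬ 2 ∣ c → eps c + bit 2 m = 0) := by
  obtain ⟨h1, h2⟩ := form2 hm heq hprim
  constructor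
  · intro hb
    unfold eps
    rw [h1 hb]
    decide
  · intro c hbc hc
    have h2' := h2 c hbc hc
    rw [bit_two (by omega : ¬ 2 ∣ m)]
    unfold eps
    rcases h2' with ⟨h3, h4⟩ | ⟨h3, h4⟩ <;>
    · rw [h3, h4]
      decide

/-! ### Linear algebra -/

theorem sum_pf2 {n p c : ℕ} (hn : n ≠ 0) (ho : ¬ 2 ∣ n) (hp : p.Prime) (hc : c.Prime)
    (hpn : ¬ p ∣ n) (hcn : ¬ c ∣ n) (hpc : p ≠ c) (hp2 : p ≠ 2) (hc2 : c ≠ 2) (f : ℕ → ZMod 2) :
    ∑ r ∈ (2 * (n * p * c)).primeFactors, f r = f 2 + ((∑ q : PF n, f q) + f p + f c) := by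
  rw [Nat.primeFactors_mul two_ne_zero (mul_ne_zero (mul_ne_zero hn hp.ne_zero) hc.ne_zero),
    Nat.prime_two.primeFactors, sum_union, sum_singleton, sum_pf hn hp hc hpn hcn hpc]
  rw [disjoint_singleton_left]
  intro h
  have h1 := Nat.dvd_of_mem_primeFactors h
  rcases (Nat.Prime.dvd_mul Nat.prime_two).mp h1 with h2 | h2
  · rcases (Nat.Prime.dvd_mul Nat.prime_two).mp h2 with h3 | h3
    · exact ho h3
    · exact hp2 ((Nat.prime_dvd_prime_iff_eq Nat.prime_two hp).mp h3).symm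
  · exact hc2 ((Nat.prime_dvd_prime_iff_eq Nat.prime_two hc).mp h2).symm

theorem f_np {f : ℕ → ZMod 2} (f1 : f 1 = 0)
    (fm : ∀ a b, ¬ 2 ∣ a → ¬ 2 ∣ b → f (a * b) = f a + f b)
    {n p : ℕ} (hn : Squarefree n) (h2 : ¬ 2 ∣ n) (hp : ¬ 2 ∣ p) :
    f (n * p) = (∑ q : PF n, f q) + f p := by
  rw [fm n p h2 hp, add_of f1 fm hn dvd_rfl h2, ← sum_coe_sort n.primeFactors]
  congr 1
  apply sum_congr rfl
  intro r _
  rw [if_pos (Nat.dvd_of_mem_primeFactors r.2)]

theorem row_gen {f : ℕ → ZMod 2} {g : ZMod 2} (f1 : f 1 = 0)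
    (fm : ∀ a b, ¬ 2 ∣ a → ¬ 2 ∣ b → f (a * b) = f a + f b)
    {n p b : ℕ} (hn : Squarefree n) (ho : ¬ 2 ∣ n) (h5 : ¬ 5 ∣ n)
    (hp : p.Prime) (p5 : 5 < p) (hpn : ¬ p ∣ n) (hN : Squarefree (2 * (n * p * 5)))
    (hb : b ∣ 2 * (n * p * 5))
    (h1 : ¬ 2 ∣ b → f b = 0) (h2 : ∀ c : ℕ, b = 2 * c → ¬ 2 ∣ c → f c + g = 0)
    (x : ℕ → ZMod 2) (hx : ∀ r, x r = if r ∣ b then 1 else 0) :
    (∑ q : PF n, x q * f q) + x p * f p + x 5 * f 5 + x 2 * g = 0 := by
  have hbs : Squarefree b := hN.squarefree_of_dvd hb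
  have key : ∀ c : ℕ, c ∣ 2 * (n * p * 5) → ¬ 2 ∣ c → (∀ r : ℕ, r.Prime → r ≠ 2 → (r ∣ c ↔ r ∣ b)) →
      f c = (∑ q : PF n, x q * f q) + x p * f p + x 5 * f 5 := by
    intro c hc hc2 hr
    rw [add_of f1 fm hN hc hc2, sum_pf2 hn.ne_zero ho hp Nat.prime_five hpn h5 (by omega)
      (by omega) (by norm_num), if_neg hc2, zero_add]
    have e : ∀ r : ℕ, r.Prime → r ≠ 2 → (if r ∣ c then f r else 0) = x r * f r := by
      intro r hr1 hr2
      rw [hx r]
      by_cases h : r ∣ c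
      · rw [if_pos h, if_pos ((hr r hr1 hr2).mp h), one_mul]
      · rw [if_neg h, if_neg (fun h' => h ((hr r hr1 hr2).mpr h')), zero_mul]
    rw [e p hp (by omega), e 5 Nat.prime_five (by norm_num)]
    congr 2
    apply sum_congr rfl
    intro q _
    apply e q (Nat.prime_of_mem_primeFactors q.2)
    intro hq
    exact ho (hq ▸ Nat.dvd_of_mem_primeFactors q.2)
  by_cases hb2 : 2 ∣ b
  · obtain ⟨c, hc⟩ := hb2
    have hc2 : ¬ 2 ∣ c := by
      intro h
      have : 2 * 2 ∣ b := by rw [hc]; exact Nat.mul_dvd_mul_left 2 h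
      exact absurd (Nat.isUnit_iff.mp (hbs 2 this)) (by norm_num)
    have hx2 : x 2 = 1 := by rw [hx, if_pos ⟨c, hc⟩]
    rw [← key c ((Dvd.intro_left 2 hc.symm).trans hb) hc2, hx2, one_mul]
    · exact h2 c hc hc2
    · intro r hr hr2
      rw [hc]
      constructor
      · intro h; exact h.mul_left 2
      · intro h
        rcases (Nat.Prime.dvd_mul hr).mp h with h | h
        · exact absurd ((Nat.prime_dvd_prime_iff_eq hr Nat.prime_two).mp h) hr2
        · exact h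
  · have hx2 : x 2 = 0 := by rw [hx, if_neg hb2]
    rw [← key b hb hb2 (fun r _ _ => Iff.rfl), hx2, zero_mul, add_zero]
    exact h1 hb2

/-- from the local conditions to the kernel of the matrix -/
theorem lin2 {n p b t : ℕ} {τ c5 : ZMod 2} {R : PF n → ZMod 2}
    (ht : (t = 1 ∧ τ = 0) ∨ (t = 2 ∧ τ = 1))
    (hn : Squarefree n) (ho : Odd n) (h5 : ¬ 5 ∣ n)
    (hp : p.Prime) (p5 : 5 < p) (hpn : ¬ p ∣ n) (hd3 : (t * (n * p)) % 3 = 1)
    (hc : ck (ext (ext (Mat n (fun q => sym n p q + τ * bit 2 q)) (fun q => bit 2 q) R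
        (bit 2 p + ∑ q : PF n, bit 2 q)) (extv (fun q : PF n => bit ((q : ℕ) : ℤ) 5) c5)
      (extv (fun q : PF n => bit ((q : ℕ) : ℤ) 3) 1) 1) = 0)
    (hD : Squarefree (2 * (n * p * 5)))
    (hb : b ∣ 2 * (n * p * 5)) (hb3 : b % 3 = 1)
    (hrow : ∀ x : ℕ → ZMod 2, (∀ r, x r = if r ∣ b then 1 else 0) →
      (∑ q : PF n, R q * (x q + x p)) + (bit 2 p + ∑ q : PF n, bit 2 q) * (x 2 + τ * x p) +
        c5 * x 5 = 0)
    (hloc : ∀ q δ : ℕ, q.Prime → q ∣ n → t * (n * p) = q * δ →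
      (¬ q ∣ b → IsSquare ((b : ℕ) : ZMod q)) ∧
      (∀ β : ℕ, b = q * β → IsSquare ((β * δ : ℕ) : ZMod q))) :
    b = 1 ∨ b = t * (n * p) := by
  classical
  have hn0 := hn.ne_zero
  have hp5 : p ≠ 5 := by omega
  have hp2 : p ≠ 2 := by omega
  have h5p : Nat.Prime 5 := Nat.prime_five
  have h3p : Nat.Prime 3 := Nat.prime_three
  have ho2 : ¬ 2 ∣ n := by rcases ho with ⟨k, hk⟩; omega
  have hcop : Nat.Coprime n p := ((Nat.Prime.coprime_iff_not_dvd hp).mpr hpn).symm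
  have hqp : ∀ q : PF n, (q : ℕ).Prime := fun q => Nat.prime_of_mem_primeFactors q.2
  have hqn : ∀ q : PF n, (q : ℕ) ∣ n := fun q => Nat.dvd_of_mem_primeFactors q.2
  have hq2 : ∀ q : PF n, (q : ℕ) ≠ 2 := by
    intro q hq
    exact ho2 (hq ▸ hqn q)
  have hsum : ∀ f : ℕ → ZMod 2, ∑ r ∈ (2 * (n * p * 5)).primeFactors, f r =
      f 2 + ((∑ q : PF n, f q) + f p + f 5) :=
    fun f => sum_pf2 hn0 ho2 hp h5p hpn h5 hp5 hp2 (by norm_num) f
  have htD : t * (n * p) ∣ 2 * (n * p * 5) := by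
    rcases ht with ⟨ht, -⟩ | ⟨ht, -⟩ <;> rw [ht]
    · exact ⟨10, by ring⟩
    · exact ⟨5, by ring⟩
  have hd : Squarefree (t * (n * p)) := hD.squarefree_of_dvd htD
  have h5d : ¬ 5 ∣ t * (n * p) := by
    intro h
    rcases (Nat.Prime.dvd_mul h5p).mp h with h | h
    · rcases ht with ⟨ht, -⟩ | ⟨ht, -⟩ <;> rw [ht] at h <;> omega
    · rcases (Nat.Prime.dvd_mul h5p).mp h with h | h
      · exact h5 h
      · exact hp5 ((Nat.prime_dvd_prime_iff_eq h5p hp).mp h).symm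
  -- the vector
  let x : ℕ → ZMod 2 := fun r => if r ∣ b then 1 else 0
  let v : Option (Option (PF n)) → ZMod 2 := fun a => match a with
    | some (some q) => x q + x p
    | some none => x 2 + τ * x p
    | none => x 5
  have hbx : ∀ q : ℕ, (∑ r ∈ (2 * (n * p * 5)).primeFactors, if r ∣ b then bit (r : ℤ) q else 0) =
      x 2 * bit 2 q +
      ((∑ r : PF n, x r * bit ((r : ℕ) : ℤ) q) + x p * bit (p : ℤ) q + x 5 * bit (5 : ℤ) q) := by
    intro q
    rw [hsum]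
    have : ∀ r : ℕ, (if r ∣ b then bit (r : ℤ) q else 0) = x r * bit (r : ℤ) q := by
      intro r
      simp only [x]
      split_ifs <;> simp
    rw [this p, this 5, this 2, sum_congr rfl fun (r : PF n) _ => this r]
    rfl
  have h2t : (2 ∣ t * (n * p)) ↔ τ = 1 := by
    rcases ht with ⟨ht, hτ⟩ | ⟨ht, hτ⟩ <;> rw [ht, hτ]
    · rw [one_mul, Nat.Prime.dvd_mul Nat.prime_two]
      constructor
      · rintro (h | h)
        · exact absurd h ho2
        · exact absurd ((Nat.prime_dvd_prime_iff_eq Nat.prime_two hp).mp h).symm hp2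
      · intro h; exact absurd h (by decide)
    · exact ⟨fun _ => rfl, fun _ => dvd_mul_right _ _⟩
  have hτ2 : ∀ y : ZMod 2, (if 2 ∣ t * (n * p) then y else 0) = τ * y := by
    intro y
    by_cases h : 2 ∣ t * (n * p)
    · rw [if_pos h, h2t.mp h, one_mul]
    · have : τ = 0 := by
        rcases ht with ⟨_, hτ⟩ | ⟨_, hτ⟩
        · exact hτ
        · exact absurd (h2t.mpr hτ) h
      rw [if_neg h, this, zero_mul]
  have hdx : ∀ q : ℕ, (∑ r ∈ (2 * (n * p * 5)).primeFactors,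
      if r ∣ t * (n * p) then bit (r : ℤ) q else 0) =
      τ * bit 2 q + ((∑ r : PF n, bit ((r : ℕ) : ℤ) q) + bit (p : ℤ) q) := by
    intro q
    rw [hsum, if_pos ((dvd_mul_left p n).mul_left t), if_neg h5d, add_zero, hτ2]
    congr 2
    apply sum_congr rfl
    intro r _
    rw [if_pos (((hqn r).mul_right p).mul_left t)]
  have hv : v = 0 := by
    apply ker_zero _ hc
    have hext := ext_mulVec (ext (Mat n (fun q => sym n p q + τ * bit 2 q)) (fun q => bit 2 q) R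
      (bit 2 p + ∑ q : PF n, bit 2 q)) (extv (fun q : PF n => bit ((q : ℕ) : ℤ) 5) c5)
      (extv (fun q : PF n => bit ((q : ℕ) : ℤ) 3) 1) 1 v
    have hext2 := ext_mulVec (Mat n (fun q => sym n p q + τ * bit 2 q)) (fun q => bit 2 q) R
      (bit 2 p + ∑ q : PF n, bit 2 q) (fun a => v (some a))
    have h2 : ∀ t : ZMod 2, t + t = 0 := CharTwo.add_self_eq_zero
    funext a
    rw [Pi.zero_apply]
    match a with
    | some (some q) =>
      rw [hext.1 (some q), hext2.1 q, mulVec_Mat]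
      obtain ⟨δ, hδ⟩ : (q : ℕ) ∣ t * (n * p) := ((hqn q).mul_right p).mul_left t
      have hl := hloc q δ (hqp q) (hqn q) hδ
      have e0 : (∑ r : PF n, (x r + x p) * bit ((r : ℕ) : ℤ) q) =
          (∑ r : PF n, x r * bit ((r : ℕ) : ℤ) q) + x p * ∑ r : PF n, bit ((r : ℕ) : ℤ) q := by
        rw [mul_sum, ← sum_add_distrib]
        apply sum_congr rfl
        intro r _
        ring
      have hsymp : sym n p q = bit (p : ℤ) q := rfl
      have hgoal : x 2 * bit 2 q + ((∑ r : PF n, x r * bit ((r : ℕ) : ℤ) q) + x p * bit (p : ℤ) q +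
          x 5 * bit (5 : ℤ) q) + x q * (τ * bit 2 q +
            ((∑ r : PF n, bit ((r : ℕ) : ℤ) q) + bit (p : ℤ) q)) = 0 := by
        rw [← hbx]
        by_cases hqb : (q : ℕ) ∣ b
        · obtain ⟨β, hβ⟩ := hqb
          have g1 := (bit_dvd hD hb (hqp q)).2 β hβ
          have g2 := (bit_dvd hD htD (hqp q)).2 δ hδ
          rw [hdx] at g2
          have g3 := bit_of_isSquare (a := ((β * δ : ℕ) : ℤ)) (q := q)
            (by exact_mod_cast hl.2 β hβ)
          have hx1 : x q = 1 := if_pos ⟨β, hβ⟩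
          have hj : ∀ c : ℕ, ¬ (q : ℕ) ∣ c → jacobiSym (c : ℤ) q ≠ 0 := by
            intro c hc'
            have _ := NeZero.mk (hqp q).ne_zero
            apply jacobiSym.ne_zero
            rw [Int.gcd_natCast_natCast]
            exact ((Nat.Prime.coprime_iff_not_dvd (hqp q)).mpr hc').symm
          have hqβ : ¬ (q : ℕ) ∣ β := by
            intro h
            have : (q : ℕ) * q ∣ 2 * (n * p * 5) := (Nat.mul_dvd_mul_left q h).trans (hβ ▸ hb)
            exact (hqp q).one_lt.ne' (Nat.isUnit_iff.mp (hD q this))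
          have hqδ : ¬ (q : ℕ) ∣ δ := by
            intro h
            have : (q : ℕ) * q ∣ t * (n * p) := by rw [hδ]; exact Nat.mul_dvd_mul_left q h
            exact (hqp q).one_lt.ne' (Nat.isUnit_iff.mp (hd q this))
          push_cast at g3
          rw [bit_mul (hj β hqβ) (hj δ hqδ), g1, g2] at g3
          rw [hx1, one_mul]
          exact g3
        · have g1 := (bit_dvd hD hb (hqp q)).1 hqb
          have g3 := bit_of_isSquare (a := (b : ℤ)) (q := q) (by exact_mod_cast hl.1 hqb)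
          have hx1 : x q = 0 := if_neg hqb
          rw [hx1, zero_mul, add_zero, ← g1, g3]
      rw [bit5 (hqp q) (hq2 q)] at hgoal
      show (∑ r : PF n, (x r + x p) * bit ((r : ℕ) : ℤ) q) +
        (x q + x p) * ((sym n p q + τ * bit 2 q) + ∑ r : PF n, bit ((r : ℕ) : ℤ) q) +
        bit 2 q * (x 2 + τ * x p) + bit ((q : ℕ) : ℤ) 5 * x 5 = 0
      rw [e0, hsymp]
      have h4 := h2 (x p * ∑ r : PF n, bit ((r : ℕ) : ℤ) q)
      have h6 := h2 (x p * τ * bit 2 q)
      linear_combination hgoal + h4 + h6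
    | some none =>
      rw [hext.1 none, hext2.2]
      exact hrow x (fun r => rfl)
    | none =>
      rw [hext.2, Fintype.sum_option]
      show (1 * (x 2 + τ * x p) + ∑ q : PF n, bit ((q : ℕ) : ℤ) 3 * (x q + x p)) + 1 * x 5 = 0
      have h3b : ¬ 3 ∣ b := by omega
      have g1 := (bit_dvd hD hb h3p).1 h3b
      have b23 : bit 2 3 = 1 := by
        rw [bit_two (by norm_num)]
        decide
      rw [bit_mod3 hb3, hbx, bit53, b23] at g1
      have h3d : ¬ 3 ∣ t * (n * p) := by omega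
      have g2 := (bit_dvd hD htD h3p).1 h3d
      rw [bit_mod3 hd3, hdx, b23] at g2
      have e0 : (∑ q : PF n, bit ((q : ℕ) : ℤ) 3 * (x q + x p)) =
          (∑ r : PF n, x r * bit ((r : ℕ) : ℤ) 3) + x p * ∑ r : PF n, bit ((r : ℕ) : ℤ) 3 := by
        rw [mul_sum, ← sum_add_distrib]
        apply sum_congr rfl
        intro r _
        ring
      rw [e0]
      have h4 := h2 (x p * bit (p : ℤ) 3)
      linear_combination -g1 - x p * g2 - h4
  have hx5 : x 5 = 0 := congrFun hv none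
  have hx2 : x 2 + τ * x p = 0 := congrFun hv (some none)
  have hxq : ∀ q : PF n, x q + x p = 0 := fun q => congrFun hv (some (some q))
  have hmem : ∀ r ∈ (2 * (n * p * 5)).primeFactors, r = 2 ∨ (r ∈ n.primeFactors) ∨ r = p ∨ r = 5 := by
    intro r hr
    have hr1 := Nat.prime_of_mem_primeFactors hr
    rcases (Nat.Prime.dvd_mul hr1).mp (Nat.dvd_of_mem_primeFactors hr) with h | h
    · exact Or.inl ((Nat.prime_dvd_prime_iff_eq hr1 Nat.prime_two).mp h)
    · rcases (Nat.Prime.dvd_mul hr1).mp h with h | h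
      · rcases (Nat.Prime.dvd_mul hr1).mp h with h | h
        · exact Or.inr (Or.inl (Nat.mem_primeFactors.mpr ⟨hr1, h, hn0⟩))
        · exact Or.inr (Or.inr (Or.inl ((Nat.prime_dvd_prime_iff_eq hr1 hp).mp h)))
      · exact Or.inr (Or.inr (Or.inr ((Nat.prime_dvd_prime_iff_eq hr1 h5p).mp h)))
  have hx1 : ∀ r, x r = 1 ↔ r ∣ b := by
    intro r
    simp only [x]
    split_ifs with h
    · simp [h]
    · simp [h]
  have hpt : p ∣ t * (n * p) := (dvd_mul_left p n).mul_left t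
  have h2cases : ∀ y : ZMod 2, y = 0 ∨ y = 1 := by decide
  by_cases hpb : p ∣ b
  · right
    have hxp : x p = 1 := (hx1 p).mpr hpb
    conv_lhs => rw [← prod_if_dvd hD hb]
    conv_rhs => rw [← prod_if_dvd hD htD]
    apply prod_congr rfl
    intro r hr
    have hiff : r ∣ b ↔ r ∣ t * (n * p) := by
      rcases hmem r hr with h | h | h | h
      · rw [h, h2t, ← hx1]
        rw [hxp, mul_one] at hx2
        constructor
        · intro h'
          rw [h'] at hx2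
          rcases h2cases τ with h3 | h3
          · rw [h3] at hx2; exact absurd hx2 (by decide)
          · exact h3
        · intro h'
          rw [h'] at hx2
          rcases h2cases (x 2) with h3 | h3
          · rw [h3] at hx2; exact absurd hx2 (by decide)
          · exact h3
      · have h1 := hxq ⟨r, h⟩
        rw [hxp] at h1
        constructor
        · intro _
          exact ((Nat.dvd_of_mem_primeFactors h).mul_right p).mul_left t
        · intro _
          rw [← hx1]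
          rcases h2cases (x r) with h3 | h3
          · rw [show x ((⟨r, h⟩ : PF n) : ℕ) = x r from rfl, h3] at h1
            exact absurd h1 (by decide)
          · exact h3
      · rw [h]; exact ⟨fun _ => hpt, fun _ => hpb⟩
      · rw [h]
        constructor
        · intro h'
          rw [← hx1, hx5] at h'
          exact absurd h' (by decide)
        · intro h'; exact absurd h' h5d
    by_cases h : r ∣ b
    · rw [if_pos h, if_pos (hiff.mp h)]
    · rw [if_neg h, if_neg (fun h' => h (hiff.mpr h'))]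
  · left
    have hxp : x p = 0 := if_neg hpb
    rw [← prod_if_dvd hD hb]
    apply prod_eq_one
    intro r hr
    rw [if_neg]
    intro hrb
    have hr1 : x r = 1 := (hx1 r).mpr hrb
    rcases hmem r hr with h | h | h | h
    · rw [hxp, mul_zero, add_zero] at hx2
      rw [h, hx2] at hr1
      exact absurd hr1 (by decide)
    · have h1 := hxq ⟨r, h⟩
      rw [hxp, add_zero, show x ((⟨r, h⟩ : PF n) : ℕ) = x r from rfl, hr1] at h1
      exact absurd h1 (by decide)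
    · exact hpb (h ▸ hrb)
    · rw [h, hx5] at hr1
      exact absurd hr1 (by decide)

/-! ### The descent -/

theorem cond1_of {d : ℕ} (hd : Squarefree d) (hok : OK2 d)
    (hfin : ∀ b : ℕ, Squarefree b → (∀ p : ℕ, p.Prime → p ∣ b → p ∣ d ∨ p = 5 ∨ p = 2) →
      b % 3 = 1 → ∀ X Y Z : ℤ, X ^ 2 + d * Y ^ 2 = b * Z ^ 2 →
      (∀ p : ℕ, p.Prime → ¬ ((p : ℤ) ∣ X ∧ (p : ℤ) ∣ Y ∧ (p : ℤ) ∣ Z)) → b = 1 ∨ b = d) :
    Cond1 (d : ℚ) := by
  have hdpos : 0 < d := Nat.pos_of_ne_zero hd.ne_zero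
  have hdQ : (0 : ℚ) < d := by exact_mod_cast hdpos
  have h3d : ¬ 3 ∣ d := by have := hok.1; omega
  intro x y h hx
  have hx20 : x - 20 * d ≠ 0 := by
    intro h0
    have hx' : x = 20 * d := by linarith
    rw [hx'] at h
    have : y ^ 2 = -(400 * (d : ℚ) ^ 3) := by rw [h]; ring
    have h3 : 0 < (d : ℚ) ^ 3 := by positivity
    nlinarith [sq_nonneg y]
  have hxpos : 0 < x := by
    rcases lt_or_gt_of_ne hx with hneg | hpos
    · exfalso
      have h3 : 0 < (x - 16 * d) * (x - 25 * d) := by nlinarith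
      have h4 : y ^ 2 = x * ((x - 16 * d) * (x - 25 * d)) := by rw [h]; ring
      nlinarith [sq_nonneg y]
    · exact hpos
  obtain ⟨b, M, e, hb, hMe, hM, he, hXb⟩ := exists_sqf hx
  obtain ⟨N, hN⟩ := exists_int_eq (Y := y) (α := -16 * (d : ℤ)) (β := -25 * (d : ℤ)) hb hM he hXb
    (by push_cast; rw [h]; ring)
  have hr0 : (M / e : ℚ) ≠ 0 := div_ne_zero (by exact_mod_cast hM) (by exact_mod_cast he)
  have hbpos : 0 < b := by
    have h3 : (0 : ℚ) < (M / e : ℚ) ^ 2 := by positivity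
    have h4 : (0 : ℚ) < b := by
      rw [hXb] at hxpos
      exact pos_of_mul_pos_left hxpos h3.le
    exact_mod_cast h4
  lift b to ℕ using hbpos.le
  have hbsq : Squarefree b := Int.squarefree_natCast.mp hb
  have hram : ∀ p : ℕ, p.Prime → p ∣ b → p ∣ d ∨ p = 5 ∨ p = 2 := by
    intro p hp hpb
    have hpbZ : (p : ℤ) ∣ (b : ℤ) := Int.natCast_dvd_natCast.mpr hpb
    by_cases hpd : p ∣ d
    · exact Or.inl hpd
    by_cases hp2 : p = 2
    · exact Or.inr (Or.inr hp2)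
    by_cases hp5 : p = 5
    · exact Or.inr (Or.inl hp5)
    exfalso
    apply prime_dvd_gen hp hb hMe hN hpbZ
    · intro h1
      rcases (Nat.prime_iff_prime_int.mp hp).dvd_or_dvd h1 with h1 | h1
      · rw [Int.dvd_neg] at h1
        have h3 : p ∣ 2 ^ 4 := by exact_mod_cast h1
        exact hp2 ((Nat.prime_dvd_prime_iff_eq hp Nat.prime_two).mp (hp.dvd_of_dvd_pow h3))
      · exact hpd (by exact_mod_cast h1)
    · intro h1
      rcases (Nat.prime_iff_prime_int.mp hp).dvd_or_dvd h1 with h1 | h1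
      · rw [Int.dvd_neg] at h1
        have h3 : p ∣ 5 ^ 2 := by exact_mod_cast h1
        exact hp5 ((Nat.prime_dvd_prime_iff_eq hp Nat.prime_five).mp (hp.dvd_of_dvd_pow h3))
      · exact hpd (by exact_mod_cast h1)
  -- modulo 3
  have hb3 : b % 3 = 1 := by
    have h3b : ¬ 3 ∣ b := by
      intro h
      rcases hram 3 Nat.prime_three h with h | h | h
      · exact h3d h
      · omega
      · omega
    by_contra hcon
    have hb2 : b % 3 = 2 := by omega
    have hbz : ((b : ℤ) : ZMod 3) = 2 := by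
      have : ((b : ℤ) : ZMod 3) = ((b % 3 : ℕ) : ZMod 3) := by push_cast; simp
      rw [this, hb2]; rfl
    have hdz : ((d : ℤ) : ZMod 3) = 1 := by
      have : ((d : ℤ) : ZMod 3) = ((d % 3 : ℕ) : ZMod 3) := by push_cast; simp
      rw [this, hok.1]; simp
    have key : ∀ M e N : ZMod 3, (2 * M ^ 2 + (-16 * 1) * e ^ 2) * (2 * M ^ 2 + (-25 * 1) * e ^ 2) =
        2 * N ^ 2 → M = 0 ∧ e = 0 := by decide
    have h1 := congrArg (Int.cast : ℤ → ZMod 3) hN
    push_cast at h1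
    have hbz' : (b : ZMod 3) = 2 := by exact_mod_cast hbz
    have hdz' : (d : ZMod 3) = 1 := by exact_mod_cast hdz
    rw [hbz', hdz'] at h1
    obtain ⟨h2, h5⟩ := key _ _ _ h1
    rw [ZMod.intCast_zmod_eq_zero_iff_dvd] at h2 h5
    exact cop_ndvd Nat.prime_three hMe h5 h2
  -- the norm equation
  have hnorm : (y / (M / e) / (x - 20 * d)) ^ 2 + d * (b * (M / e) / (x - 20 * d)) ^ 2 =
      (b : ℚ) := by
    obtain ⟨r, hr⟩ : ∃ r : ℚ, r = M / e := ⟨_, rfl⟩
    rw [← hr] at hXb hr0 ⊢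
    push_cast at hXb
    obtain ⟨z, hz⟩ : ∃ z, z = x - 20 * d := ⟨_, rfl⟩
    rw [← hz] at hx20 ⊢
    have hy2 : y ^ 2 = b * r ^ 2 * (z ^ 2 - d * (b * r ^ 2)) := by
      rw [h, hz, hXb]; ring
    field_simp
    rw [hy2]
    ring
  obtain ⟨X, Y, Z, hZ, hX, hY, hprim⟩ := exists_prim (y / (M / e) / (x - 20 * d))
    (b * (M / e) / (x - 20 * d))
  have heq : X ^ 2 + d * Y ^ 2 = b * Z ^ 2 := by
    have : (X : ℚ) ^ 2 + d * Y ^ 2 = b * Z ^ 2 := by
      rw [← hX, ← hY]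
      linear_combination (Z : ℚ) ^ 2 * hnorm
    exact_mod_cast this
  rcases hfin b hbsq hram hb3 X Y Z heq hprim with h1 | h1
  · refine ⟨M / e, Or.inl ?_⟩
    rw [hXb, h1]; push_cast; ring
  · refine ⟨M / e, Or.inr ?_⟩
    rw [hXb, h1]; push_cast; ring

theorem dvd_of_ram {b n p t : ℕ} (ht : t = 1 ∨ t = 2) (hb : Squarefree b)
    (hram : ∀ q : ℕ, q.Prime → q ∣ b → q ∣ t * (n * p) ∨ q = 5 ∨ q = 2) :
    b ∣ 2 * (n * p * 5) := by
  rw [← Nat.prod_primeFactors_of_squarefree hb]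
  refine Finset.prod_primes_dvd _ (fun p hp => (Nat.prime_of_mem_primeFactors hp).prime)
    (fun q hq => ?_)
  rcases hram q (Nat.prime_of_mem_primeFactors hq) (Nat.dvd_of_mem_primeFactors hq) with h | h | h
  · refine h.trans ?_
    rcases ht with ht | ht <;> rw [ht]
    · exact ⟨10, by ring⟩
    · exact ⟨5, by ring⟩
  · rw [h]; exact ⟨2 * (n * p), by ring⟩
  · rw [h]; exact dvd_mul_right _ _

theorem sqf_all {n p : ℕ} (hn : Squarefree n) (ho : Odd n) (h5 : ¬ 5 ∣ n) (hp : p.Prime)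
    (p5 : 5 < p) (hpn : ¬ p ∣ n) : Squarefree (2 * (n * p * 5)) := by
  have hcop : Nat.Coprime n p := ((Nat.Prime.coprime_iff_not_dvd hp).mpr hpn).symm
  have h5p : Nat.Prime 5 := Nat.prime_five
  have hd : Squarefree (n * p) := (Nat.squarefree_mul hcop).mpr ⟨hn, hp.squarefree⟩
  have h5d : ¬ 5 ∣ n * p := by
    intro h
    rcases (Nat.Prime.dvd_mul h5p).mp h with h | h
    · exact h5 h
    · have := (Nat.prime_dvd_prime_iff_eq h5p hp).mp h
      omega
  have hD : Squarefree (n * p * 5) :=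
    (Nat.squarefree_mul ((Nat.Prime.coprime_iff_not_dvd h5p).mpr h5d).symm).mpr
      ⟨hd, h5p.squarefree⟩
  have h2 : ¬ 2 ∣ n * p * 5 := by
    rw [Nat.Prime.dvd_mul Nat.prime_two, Nat.Prime.dvd_mul Nat.prime_two]
    rintro ((h | h) | h)
    · rcases ho with ⟨k, hk⟩; omega
    · have := (Nat.prime_dvd_prime_iff_eq Nat.prime_two hp).mp h
      omega
    · omega
  exact (Nat.squarefree_mul ((Nat.Prime.coprime_iff_not_dvd Nat.prime_two).mpr h2)).mpr
    ⟨Nat.prime_two.squarefree, hD⟩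

theorem stmtE1 : StmtE1 := by
  intro κ n hn ho h3 h5 p hp p5 hpn hok hκ hc
  have hN := sqf_all hn ho h5 hp p5 hpn
  have h2n : ¬ 2 ∣ n := by rcases ho with ⟨k, hk⟩; omega
  have h2p : ¬ 2 ∣ p := by
    intro h
    have := (Nat.prime_dvd_prime_iff_eq Nat.prime_two hp).mp h
    omega
  have h2np : ¬ 2 ∣ n * p := by
    rw [Nat.Prime.dvd_mul Nat.prime_two]; tauto
  have hd : Squarefree (2 * (n * p)) := hN.squarefree_of_dvd ⟨5, by ring⟩
  apply cond1_of hd hok
  intro b hb hram hb3 X Y Z heq hprim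
  have hbN : b ∣ 2 * (n * p * 5) := dvd_of_ram (Or.inr rfl) hb hram
  obtain ⟨g1, g2⟩ := two3 h2np hκ heq (hprim 2 Nat.prime_two)
  have fm : ∀ a b : ℕ, ¬ 2 ∣ a → ¬ 2 ∣ b →
      (fun r : ℕ => bit 2 r + κ * eps r) (a * b) =
        (fun r : ℕ => bit 2 r + κ * eps r) a + (fun r : ℕ => bit 2 r + κ * eps r) b := by
    intro a b ha hb
    show bit 2 (a * b) + κ * eps (a * b) = (bit 2 a + κ * eps a) + (bit 2 b + κ * eps b)
    rw [bit_two_mul ha hb, eps_mul ha hb]
    ring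
  have b1 : bit 2 1 = 0 := by rw [bit_two (by norm_num)]; decide
  have b5 : bit 2 5 = 1 := by rw [bit_two (by norm_num)]; decide
  have e1 : eps 1 = 0 := by unfold eps; decide
  have e5 : eps 5 = 0 := by unfold eps; decide
  have f1 : (fun r : ℕ => bit 2 r + κ * eps r) 1 = 0 := by
    show bit 2 1 + κ * eps 1 = 0
    rw [b1, e1, mul_zero, add_zero]
  refine lin2 (t := 2) (τ := 1) (c5 := 1) (R := fun q => bit 2 q + κ * mu n q)
    (Or.inr ⟨rfl, rfl⟩) hn ho h5 hp p5 hpn hok.1 ?_ hN hbN hb3 ?_ ?_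
  · have : (fun q : PF n => sym n p q + 1 * bit 2 q) = fun q => sym n p q + bit 2 q := by
      funext q; rw [one_mul]
    rw [this]
    exact hc
  · intro x hx
    have hrow := row_gen (f := fun r : ℕ => bit 2 r + κ * eps r) f1 fm hn h2n h5 hp p5 hpn hN hbN
      g1 g2 x hx
    have hnp := f_np (f := fun r : ℕ => bit 2 r + κ * eps r) f1 fm hn h2n h2p
    have hnp2 := f_np (f := fun r : ℕ => bit 2 r) b1 (fun a b ha hb => bit_two_mul ha hb) hn h2n h2p
    have hκ0 : κ * eps (n * p) = 0 := by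
      unfold eps
      by_cases h : (n * p) % 4 = 3
      · have : κ ≠ 1 := fun h' => by have := hκ.mpr h'; omega
        have h0 : ∀ t : ZMod 2, t ≠ 1 → t = 0 := by decide
        rw [h0 κ this, zero_mul]
      · rw [if_neg h, mul_zero]
    have e0 : (∑ q : PF n, (bit 2 q + κ * mu n q) * (x q + x p)) =
        (∑ q : PF n, x q * (bit 2 q + κ * eps q)) + x p * ∑ q : PF n, (bit 2 q + κ * eps q) := by
      rw [mul_sum, ← sum_add_distrib]
      apply sum_congr rfl
      intro r _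
      show (bit 2 r + κ * eps r) * (x r + x p) = _
      ring
    change (∑ q : PF n, x q * (bit 2 q + κ * eps q)) + x p * (bit 2 p + κ * eps p) +
      x 5 * (bit 2 5 + κ * eps 5) + x 2 * bit 2 (n * p) = 0 at hrow
    change bit 2 (n * p) + κ * eps (n * p) = (∑ q : PF n, (bit 2 q + κ * eps q)) +
      (bit 2 p + κ * eps p) at hnp
    rw [b5, e5] at hrow
    rw [hκ0] at hnp
    show (∑ q : PF n, (bit 2 q + κ * mu n q) * (x q + x p)) +
      (bit 2 p + ∑ q : PF n, bit 2 q) * (x 2 + 1 * x p) + 1 * x 5 = 0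
    rw [e0]
    have h2 : ∀ t : ZMod 2, t + t = 0 := CharTwo.add_self_eq_zero
    have h4 := h2 (x p * (bit 2 p + κ * eps p))
    have h6 := h2 (x p * bit 2 (n * p))
    linear_combination hrow - (x 2 + x p) * hnp2 - x p * hnp - h4 + h6
  · intro q δ hq hqn hδ
    exact form_local hd hb heq hprim hq hδ

theorem stmtE3 : StmtE3 := by
  intro n hn ho h3 h5 p hp p5 hpn hok h4 hc
  have hN := sqf_all hn ho h5 hp p5 hpn
  have h2n : ¬ 2 ∣ n := by rcases ho with ⟨k, hk⟩; omega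
  have h2p : ¬ 2 ∣ p := by
    intro h
    have := (Nat.prime_dvd_prime_iff_eq Nat.prime_two hp).mp h
    omega
  have hd : Squarefree (n * p) := hN.squarefree_of_dvd ⟨10, by ring⟩
  apply cond1_of hd hok
  intro b hb hram hb3 X Y Z heq hprim
  have hbN : b ∣ 2 * (n * p * 5) := dvd_of_ram (t := 1) (Or.inl rfl) hb (by rwa [one_mul])
  obtain ⟨g1, g2⟩ := two2 h4 heq (hprim 2 Nat.prime_two)
  have b1 : bit 2 1 = 0 := by rw [bit_two (by norm_num)]; decide
  have e1 : eps 1 = 0 := by unfold eps; decide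
  have e5 : eps 5 = 0 := by unfold eps; decide
  have key := lin2 (b := b) (t := 1) (τ := 0) (c5 := 0) (R := mu n)
    (Or.inl ⟨rfl, rfl⟩) hn ho h5 hp p5 hpn (by rw [one_mul]; exact hok.1) ?_ hN hbN hb3 ?_ ?_
  · rwa [one_mul] at key
  · have : (fun q : PF n => sym n p q + 0 * bit 2 q) = sym n p := by
      funext q; rw [zero_mul, add_zero]
    rw [this]
    exact hc
  · intro x hx
    have hrow := row_gen e1 (fun a b ha hb => eps_mul ha hb) hn h2n h5 hp p5 hpn hN hbN g1 g2 x hx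
    have hnp := f_np e1 (fun a b ha hb => eps_mul ha hb) hn h2n h2p
    have hnp2 := f_np b1 (fun a b ha hb => bit_two_mul ha hb) hn h2n h2p
    have h0 : eps (n * p) = 0 := by unfold eps; rw [h4]; decide
    have e0 : (∑ q : PF n, mu n q * (x q + x p)) =
        (∑ q : PF n, x q * eps q) + x p * ∑ q : PF n, eps q := by
      rw [mul_sum, ← sum_add_distrib]
      apply sum_congr rfl
      intro r _
      show eps r * (x r + x p) = _
      ring
    rw [e5] at hrow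
    rw [h0] at hnp
    rw [e0]
    have h2 : ∀ t : ZMod 2, t + t = 0 := CharTwo.add_self_eq_zero
    have h4 := h2 (x p * eps p)
    linear_combination hrow - x 2 * hnp2 - x p * hnp - h4
  · intro q δ hq hqn hδ
    exact form_local hd hb heq hprim hq (by rw [← hδ, one_mul])

end Vale.Agent.P017.R4.H597
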